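import Vale.Agent.P182.H588.Ctx
import Vale.Agent.P182.H181.Second

/-!
# The glued null case: common definitions (note 20078 of helper563)

Tensors in `U ⊗ U'` are the endomorphisms with image in `U` which kill `U'^⊥`.
`x_a` is the family `l ↦ (t l, (Ωt) l)`, `arm l = a`, so `T x_a` is `l ↦ (T (t l), T (om t l))`.
-/

namespace Vale.Agent.P182.H983

open Module Matrix Vale.Agent.P182.H533 Vale.Agent.P182.B1 Vale.Agent.P182.H922
  Vale.Agent.P182.H578 Vale.Agent.P182.H588 Vale.Agent.P182.H181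

universe u v w

section ten

variable {L V : Type*} [Field L] [AddCommGroup V] [Module L V]

/-- the tensors `U ⊗ U'`, as endomorphisms (`p ⊗ w` is `v ↦ q w v • p`) -/
def Ten (q : V →ₗ[L] V →ₗ[L] L) (U U' : Submodule L V) : Submodule L (End L V) where
  carrier := {T | (∀ v, T v ∈ U) ∧ ∀ v ∈ perp q U', T v = 0}
  zero_mem' := ⟨fun _ => U.zero_mem, fun _ _ => rfl⟩
  add_mem' := fun {a b} ha hb => ⟨fun v => U.add_mem (ha.1 v) (hb.1 v), fun v hv => by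
    rw [LinearMap.add_apply, ha.2 v hv, hb.2 v hv, add_zero]⟩
  smul_mem' := fun c x hx => ⟨fun v => U.smul_mem c (hx.1 v), fun v hv => by
    rw [LinearMap.smul_apply, hx.2 v hv, smul_zero]⟩

theorem mem_Ten {q : V →ₗ[L] V →ₗ[L] L} {U U' : Submodule L V} {T : End L V} :
    T ∈ Ten q U U' ↔ (∀ v, T v ∈ U) ∧ ∀ v ∈ perp q U', T v = 0 := Iff.rfl

/-- the rank one tensor `p ⊗ w` -/
def tp (q : V →ₗ[L] V →ₗ[L] L) (p w : V) : End L V := (q w).smulRight p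

theorem tp_apply (q : V →ₗ[L] V →ₗ[L] L) (p w v : V) : tp q p w v = q w v • p := rfl

theorem tp_mem {q : V →ₗ[L] V →ₗ[L] L} (hq : IsForm q) {U U' : Submodule L V} {p w : V}
    (hp : p ∈ U) (hw : w ∈ U') : tp q p w ∈ Ten q U U' :=
  ⟨fun v => by rw [tp_apply]; exact U.smul_mem _ hp, fun v hv => by
    rw [tp_apply, hq.symm, hv w hw, zero_smul]⟩

/-- `T'` is the adjoint (the flip) of `T` -/
def IsAdj (q : V →ₗ[L] V →ₗ[L] L) (T T' : End L V) : Prop := ∀ v w, q (T v) w = q v (T' w)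

/-- the image of the words of length `N` on a subspace -/
def wordsOn {ι : Type*} (S : ι → End L V) (U : Submodule L V) : ℕ → Submodule L V
  | 0 => U
  | r + 1 => ⨆ s, (wordsOn S U r).map (S s)

end ten

section defs

variable {L V J : Type*} [Field L] [AddCommGroup V] [Module L V] [Fintype J]

/-- the family `(T_a x_a)_a` of a triple of tensors -/
def fam (𝒟 : Cfg L V J) (t : J → V) (T : Fin 3 → End L V) : (J → V) × (J → V) :=
  (fun l => T (𝒟.arm l) (t l), fun l => T (𝒟.arm l) (𝒟.om t l))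

variable [DecidableEq J]

omit [DecidableEq J] in
/-- `y - r` satisfies the flag conditions -/
def InN (𝒟 : Cfg L V J) (y : (J → V) × (J → V)) (r : J → V) : Prop :=
  ∀ l, y.1 l - r l ∈ 𝒟.C l ∧ y.2 l - 𝒟.om r l ∈ perp 𝒟.q (𝒟.C l)

/-- **`WW` of 563** (independent of the base `t_μ`) -/
def WFset (𝒟 : Cfg L V J) (u : J → L) (t : J → V) (W I : Submodule L V) :
    Set ((J → V) × (J → V)) :=
  {y | ∃ r ∈ Uu V u, (∃ Γ, RelG 𝒟 W I t Γ r) ∧ InN 𝒟 y r}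

/-- **`WW^e`**: `r` can be chosen exact, `r^* = c k • t^*` on `U k` -/
def WFeset (𝒟 : Cfg L V J) (u : J → L) (t : J → V) (W I : Submodule L V) {n : ℕ}
    (U : Fin n → Submodule L V) : Set ((J → V) × (J → V)) :=
  {y | ∃ r ∈ Uu V u, (∃ Γ, RelG 𝒟 W I t Γ r) ∧
    (∃ c : Fin n → L, ∀ k, ∀ w ∈ U k, ∀ l, 𝒟.q w (r l) = c k * 𝒟.q w (t l)) ∧ InN 𝒟 y r}

end defs

section sub

variable {L V J : Type*} [Field L] [AddCommGroup V] [Module L V] [Fintype J] [DecidableEq J]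
  {𝒟 : Cfg L V J} {t : J → V} {W I : Submodule L V}

theorem relG_zero : RelG 𝒟 W I t 0 0 where
  mapW w _ := W.zero_mem
  mapI w _ := I.zero_mem
  sa v _ w _ := by simp
  comm a w _ := by simp
  one w _ l := by simp
  two a w _ := by
    have : Tt L (0 : J → V) = 0 := LinearMap.ext fun x => by simp [Tt_apply]
    rw [this]
    have h : opr 𝒟.q (0 : (J → L) →ₗ[L] V) (Gm 𝒟.arm 𝒟.Ω a) (Tt L t) w = 0 := rfl
    rw [h]
    simp

theorem relG_add {r r' : J → V} {Γ Γ' : End L V} (h : RelG 𝒟 W I t Γ r)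
    (h' : RelG 𝒟 W I t Γ' r') : RelG 𝒟 W I t (Γ + Γ') (r + r') where
  mapW w hw := W.add_mem (h.mapW w hw) (h'.mapW w hw)
  mapI w hw := I.add_mem (h.mapI w hw) (h'.mapI w hw)
  sa v hv w hw := by
    rw [LinearMap.add_apply, LinearMap.add_apply, map_add, map_add, LinearMap.add_apply,
      h.sa v hv w hw, h'.sa v hv w hw]
  comm a w hw := by
    have e : (Γ + Γ') (Res 𝒟 t a w) - Res 𝒟 t a ((Γ + Γ') w) =
        (Γ (Res 𝒟 t a w) - Res 𝒟 t a (Γ w)) + (Γ' (Res 𝒟 t a w) - Res 𝒟 t a (Γ' w)) := by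
      simp only [LinearMap.add_apply, map_add]; abel
    rw [e]
    exact I.add_mem (h.comm a w hw) (h'.comm a w hw)
  one w hw l := by
    rw [Pi.add_apply, map_add, LinearMap.add_apply, map_add, LinearMap.add_apply,
      h.one w hw, h'.one w hw]
  two a w hw := by
    have e : opr 𝒟.q (Tt L (r + r')) (Gm 𝒟.arm 𝒟.Ω a) (Tt L t) w -
        Res 𝒟 t a ((Γ + Γ') w) =
        (opr 𝒟.q (Tt L r) (Gm 𝒟.arm 𝒟.Ω a) (Tt L t) w - Res 𝒟 t a (Γ w)) +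
        (opr 𝒟.q (Tt L r') (Gm 𝒟.arm 𝒟.Ω a) (Tt L t) w - Res 𝒟 t a (Γ' w)) := by
      rw [Tt_add]
      simp only [opr_apply, LinearMap.add_apply, map_add]
      abel
    rw [e]
    exact I.add_mem (h.two a w hw) (h'.two a w hw)

theorem relG_smul {r : J → V} {Γ : End L V} (h : RelG 𝒟 W I t Γ r) (c : L) :
    RelG 𝒟 W I t (c • Γ) (c • r) where
  mapW w hw := W.smul_mem c (h.mapW w hw)
  mapI w hw := I.smul_mem c (h.mapI w hw)
  sa v hv w hw := by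
    rw [LinearMap.smul_apply, LinearMap.smul_apply, map_smul, map_smul, LinearMap.smul_apply,
      h.sa v hv w hw]
  comm a w hw := by
    have e : (c • Γ) (Res 𝒟 t a w) - Res 𝒟 t a ((c • Γ) w) =
        c • (Γ (Res 𝒟 t a w) - Res 𝒟 t a (Γ w)) := by
      simp only [LinearMap.smul_apply, map_smul, smul_sub]
    rw [e]
    exact I.smul_mem c (h.comm a w hw)
  one w hw l := by
    rw [Pi.smul_apply, map_smul, LinearMap.smul_apply, map_smul, LinearMap.smul_apply,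
      h.one w hw]
  two a w hw := by
    have e : opr 𝒟.q (Tt L (c • r)) (Gm 𝒟.arm 𝒟.Ω a) (Tt L t) w -
        Res 𝒟 t a ((c • Γ) w) =
        c • (opr 𝒟.q (Tt L r) (Gm 𝒟.arm 𝒟.Ω a) (Tt L t) w - Res 𝒟 t a (Γ w)) := by
      rw [Tt_smul]
      simp only [opr_apply, LinearMap.smul_apply, map_smul, smul_sub]
    rw [e]
    exact I.smul_mem c (h.two a w hw)

omit [DecidableEq J] in
theorem InN.zero : InN 𝒟 (0 : (J → V) × (J → V)) 0 := fun l => by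
  have : 𝒟.om (0 : J → V) l = 0 := by simp [Cfg.om]
  rw [this]
  simp

omit [DecidableEq J] in
theorem InN.add {y y' : (J → V) × (J → V)} {r r' : J → V} (h : InN 𝒟 y r) (h' : InN 𝒟 y' r') :
    InN 𝒟 (y + y') (r + r') := fun l => by
  rw [om_add]
  constructor
  · have := add_mem (h l).1 (h' l).1
    convert this using 1
    rw [Prod.fst_add, Pi.add_apply, Pi.add_apply]
    abel
  · have := add_mem (h l).2 (h' l).2
    convert this using 1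
    rw [Prod.snd_add, Pi.add_apply]
    abel

omit [DecidableEq J] in
theorem InN.smul {y : (J → V) × (J → V)} {r : J → V} (h : InN 𝒟 y r) (c : L) :
    InN 𝒟 (c • y) (c • r) := fun l => by
  rw [om_smul]
  constructor
  · have := Submodule.smul_mem _ c (h l).1
    convert this using 1
    rw [Prod.smul_fst, Pi.smul_apply, Pi.smul_apply, smul_sub]
  · have := Submodule.smul_mem _ c (h l).2
    convert this using 1
    rw [Prod.smul_snd, Pi.smul_apply, smul_sub]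

variable (𝒟 t W I)

/-- **`WW` of 563** as a submodule -/
def WF (u : J → L) : Submodule L ((J → V) × (J → V)) where
  carrier := WFset 𝒟 u t W I
  zero_mem' := ⟨0, (Uu V u).zero_mem, ⟨0, relG_zero⟩, InN.zero⟩
  add_mem' := by
    rintro y y' ⟨r, hr, ⟨Γ, hΓ⟩, hn⟩ ⟨r', hr', ⟨Γ', hΓ'⟩, hn'⟩
    exact ⟨r + r', (Uu V u).add_mem hr hr', ⟨Γ + Γ', relG_add hΓ hΓ'⟩, hn.add hn'⟩
  smul_mem' := by
    rintro c y ⟨r, hr, ⟨Γ, hΓ⟩, hn⟩
    exact ⟨c • r, (Uu V u).smul_mem c hr, ⟨c • Γ, relG_smul hΓ c⟩, hn.smul c⟩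

/-- **`WW^e` of 563** as a submodule -/
def WFe (u : J → L) {n : ℕ} (U : Fin n → Submodule L V) : Submodule L ((J → V) × (J → V)) where
  carrier := WFeset 𝒟 u t W I U
  zero_mem' := ⟨0, (Uu V u).zero_mem, ⟨0, relG_zero⟩, ⟨0, fun k w _ l => by simp⟩, InN.zero⟩
  add_mem' := by
    rintro y y' ⟨r, hr, ⟨Γ, hΓ⟩, ⟨c, hc⟩, hn⟩ ⟨r', hr', ⟨Γ', hΓ'⟩, ⟨c', hc'⟩, hn'⟩
    exact ⟨r + r', (Uu V u).add_mem hr hr', ⟨Γ + Γ', relG_add hΓ hΓ'⟩, ⟨c + c', fun k w hw l => by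
      rw [Pi.add_apply, map_add, hc k w hw l, hc' k w hw l, Pi.add_apply, add_mul]⟩, hn.add hn'⟩
  smul_mem' := by
    rintro a y ⟨r, hr, ⟨Γ, hΓ⟩, ⟨c, hc⟩, hn⟩
    exact ⟨a • r, (Uu V u).smul_mem a hr, ⟨a • Γ, relG_smul hΓ a⟩, ⟨a • c, fun k w hw l => by
      rw [Pi.smul_apply, map_smul, hc k w hw l, Pi.smul_apply, smul_eq_mul, smul_eq_mul,
        mul_assoc]⟩, hn.smul a⟩

theorem mem_WF {u : J → L} {y : (J → V) × (J → V)} : y ∈ WF 𝒟 t W I u ↔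
    ∃ r ∈ Uu V u, (∃ Γ, RelG 𝒟 W I t Γ r) ∧ InN 𝒟 y r := Iff.rfl

theorem mem_WFe {u : J → L} {n : ℕ} {U : Fin n → Submodule L V} {y : (J → V) × (J → V)} :
    y ∈ WFe 𝒟 t W I u U ↔
    ∃ r ∈ Uu V u, (∃ Γ, RelG 𝒟 W I t Γ r) ∧
      (∃ c : Fin n → L, ∀ k, ∀ w ∈ U k, ∀ l, 𝒟.q w (r l) = c k * 𝒟.q w (t l)) ∧
      InN 𝒟 y r := Iff.rfl

theorem WFe_le {u : J → L} {n : ℕ} {U : Fin n → Submodule L V} : WFe 𝒟 t W I u U ≤ WF 𝒟 t W I u := by
  rintro y ⟨r, hr, hΓ, -, hn⟩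
  exact ⟨r, hr, hΓ, hn⟩

end sub

section blk

variable {L : Type u} {V : Type v} {J : Type w} [Field L] [AddCommGroup V] [Module L V]
  [Fintype J] [DecidableEq J]

/-- **The data of the glued null case**: `W` the stable image, `I` its radical, `U k` the stable
image of the preimage of the `k`-th FINEST block (primitive idempotents of the symmetric
commutant), `d k` the eigenvalue of `D` on it (NOT injective), `p s` the sizes. -/
structure Blk (𝒟 : Cfg L V J) (u : J → L) (t t' : J → V) (W I : Submodule L V) {n : ℕ}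
    (U : Fin n → Submodule L V) (d : Fin n → L) (p : Fin 3 → ℕ) : Prop where
  ht : t ∈ Ku 𝒟 u
  ht' : t' ∈ Ku 𝒟 u
  span : ∀ k ∈ Ku 𝒟 u, ∃ a b : L, k = a • t + b • t'
  I_eq : I = W ⊓ perp 𝒟.q W
  W_eq : ∃ N, W = words (Res 𝒟 t) N
  sumW : ⨆ a, W.map (Res 𝒟 t a) = W
  /-- long words kill `W^⊥`, in particular `I` -/
  nil : ∃ N, wordsOn (Res 𝒟 t) (perp 𝒟.q W) N = ⊥
  /-- two eigenvalues -/
  two : ∀ i, ∃ j, d j ≠ d i
  supU : ⨆ k, U k = W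
  supI : ⨆ k, U k ⊓ I = I
  ortho : ∀ i j, i ≠ j → ∀ v ∈ U i, ∀ w ∈ U j, 𝒟.q v w = 0
  sumU : ∀ k, ⨆ a, (U k).map (Res 𝒟 t a) = U k
  star : ∀ k, ∀ w ∈ U k, ∀ l, 𝒟.q (t' l) w = d k * 𝒟.q (t l) w
  op : ∀ k a, ∀ w ∈ U k, opr 𝒟.q (Tt L t) (Gm 𝒟.arm 𝒟.Ω a) (Tt L t') w = d k • Res 𝒟 t a w
  /-- the types -/
  pow : ∀ k s, ∀ w ∈ U k, (Res 𝒟 t s ^ p s) w ∈ I
  /-- no socle modulo `I` -/
  soc : ∀ w ∈ W, (∀ a, Res 𝒟 t a w ∈ I) → w ∈ I
  /-- `U k ⊓ I` is generated by the `S_s ^ p_s U k` (GEN, helper120) -/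
  gen : ∀ k, ∀ X : Submodule L V, (∀ a, X.map (Res 𝒟 t a) ≤ X) →
    (∀ s, (U k).map (Res 𝒟 t s ^ p s) ≤ X) → U k ⊓ I ≤ X
  one : ∀ s, 1 ≤ p s
  /-- the blocks are the finest ones: the elements of the symmetric commutant are scalars on them -/
  scal : ∀ Γ : End L V, (∀ w ∈ W, Γ w ∈ W) → (∀ w ∈ I, Γ w ∈ I) →
    (∀ v ∈ W, ∀ w ∈ W, 𝒟.q (Γ v) w = 𝒟.q v (Γ w)) →
    (∀ a, ∀ w ∈ W, Γ (Res 𝒟 t a w) - Res 𝒟 t a (Γ w) ∈ I) →
    ∃ c : Fin n → L, ∀ k, ∀ w ∈ U k, Γ w - c k • w ∈ I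
  /-- the block sizes are exactly `p s` -/
  top : ∀ k s, ∃ v ∈ U k, ∃ w ∈ U k, 𝒟.q v ((Res 𝒟 t s ^ (p s - 1)) w) ≠ 0

/-- the two-parameter base -/
def tm (t t' : J → V) (x y : L) : J → V := x • t + y • t'

/-- **ROW S** (563 (S)) -/
def RowS (𝒟 : Cfg L V J) (u : J → L) (t t' : J → V) (W I : Submodule L V) (x y : L) : Prop :=
  ∀ β : Fin 3 → End L V, (∀ a, β a ∈ Ten 𝒟.q W W) → (∀ a, IsSA 𝒟.q (β a)) →
    (∀ a, ∀ w ∈ W, β a (Res 𝒟 (tm t t' x y) a w) - Res 𝒟 (tm t t' x y) a (β a w) ∈ I) →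
    (∑ a, (Res 𝒟 (tm t t' x y) a * β a - β a * Res 𝒟 (tm t t' x y) a) = 0) →
    fam 𝒟 (tm t t' x y) β ∈ WF 𝒟 t W I u

/-- **ROW C0** (563 (C0)) -/
def RowC0 (𝒟 : Cfg L V J) (u : J → L) (t : J → V) (W I : Submodule L V) : Prop :=
  ∀ a, ∀ T ∈ Ten 𝒟.q I W ⊔ Ten 𝒟.q W I, fam 𝒟 t (Pi.single a T) ∈ WF 𝒟 t W I u

end blk

end Vale.Agent.P182.H983
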